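import Mathlib

/-!
P047, pool job SH-A (backup copy by helper89): the abstract bound behind the sharp
subcube-partition inequality.  Three steps: a polynomial identity in `a` gives a coefficient
identity (`coeff_identity`), a binomial Jensen inequality (`binom_jensen`), and the assembly
(`abstract_bound`).
-/

namespace Vale.Agent.Lib.P047.H89

open Finset Polynomial

/-- STEP A: comparing the coefficients at `P` of the two sides of the identity `hid`. -/
theorem coeff_identity {ι : Type*} [Fintype ι] (k : ℕ) (c p : ι → ℕ) (M : ℝ)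
    (hid : ∀ a : ℝ, 0 < a →
      ∑ x, (2 : ℝ) ^ (c x) * a ^ (p x) * (a + 1) ^ (k - c x) = M * (a + 1) ^ k) (P : ℕ) :
    ∑ x, (2 : ℝ) ^ (c x) * (if p x ≤ P then ((k - c x).choose (P - p x) : ℝ) else 0)
      = M * (k.choose P : ℝ) := by
  have hpoly : (∑ x, C ((2 : ℝ) ^ (c x)) * (X ^ (p x) * (X + 1) ^ (k - c x)) : ℝ[X])
      = C M * (X + 1) ^ k := by
    apply Polynomial.eq_of_infinite_eval_eq
    apply Set.Infinite.mono _ (Set.Ioi_infinite (0 : ℝ))
    intro a ha
    have h := hid a ha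
    simp only [Set.mem_ofPred_eq, eval_finsetSum, eval_mul, eval_C, eval_pow, eval_X, eval_add,
      eval_one]
    rw [← h]
    apply Finset.sum_congr rfl
    intro x _
    ring
  have h := congrArg (fun q => q.coeff P) hpoly
  simp only [finsetSum_coeff, coeff_C_mul, coeff_X_pow_mul', coeff_X_add_one_pow] at h
  exact h

/-- STEP B: binomial Jensen inequality. -/
theorem binom_jensen (m : ℕ) (y : ℝ) :
    (2 : ℝ) ^ m * |y|
      ≤ ∑ r ∈ range (m + 1), (m.choose r : ℝ) * |y + 2 * (r : ℝ) - (m : ℝ)| := by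
  have h1 : ∑ r ∈ range (m + 1), (m.choose r : ℝ) = (2 : ℝ) ^ m := by
    have h := Nat.sum_range_choose m
    exact_mod_cast h
  have h2 : ∑ r ∈ range (m + 1), (m.choose r : ℝ) * (2 * (r : ℝ) - (m : ℝ)) = 0 := by
    have hrefl := Finset.sum_range_reflect
      (fun r => (m.choose r : ℝ) * (2 * (r : ℝ) - (m : ℝ))) (m + 1)
    have hneg : ∑ j ∈ range (m + 1),
        (fun r => (m.choose r : ℝ) * (2 * (r : ℝ) - (m : ℝ))) (m + 1 - 1 - j)
        = - ∑ j ∈ range (m + 1), (m.choose j : ℝ) * (2 * (j : ℝ) - (m : ℝ)) := by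
      rw [← Finset.sum_neg_distrib]
      apply Finset.sum_congr rfl
      intro j hj
      have hj' : j ≤ m := by
        have := Finset.mem_range.mp hj
        omega
      have e1 : m + 1 - 1 - j = m - j := by omega
      have e2 : ((m - j : ℕ) : ℝ) = (m : ℝ) - (j : ℝ) := Nat.cast_sub hj'
      simp only [e1]
      rw [Nat.choose_symm hj', e2]
      ring
    linarith [hrefl, hneg]
  have h3 : (2 : ℝ) ^ m * y
      = ∑ r ∈ range (m + 1), (m.choose r : ℝ) * (y + 2 * (r : ℝ) - (m : ℝ)) := by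
    have h4 : ∑ r ∈ range (m + 1), (m.choose r : ℝ) * (y + 2 * (r : ℝ) - (m : ℝ))
        = (∑ r ∈ range (m + 1), (m.choose r : ℝ)) * y
          + ∑ r ∈ range (m + 1), (m.choose r : ℝ) * (2 * (r : ℝ) - (m : ℝ)) := by
      rw [Finset.sum_mul, ← Finset.sum_add_distrib]
      apply Finset.sum_congr rfl
      intro r _
      ring
    rw [h4, h1, h2, add_zero]
  calc (2 : ℝ) ^ m * |y| = |(2 : ℝ) ^ m * y| := by
        rw [abs_mul, abs_of_pos (by positivity : (0 : ℝ) < 2 ^ m)]
    _ = |∑ r ∈ range (m + 1), (m.choose r : ℝ) * (y + 2 * (r : ℝ) - (m : ℝ))| := by rw [h3]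
    _ ≤ ∑ r ∈ range (m + 1), |(m.choose r : ℝ) * (y + 2 * (r : ℝ) - (m : ℝ))| :=
        Finset.abs_sum_le_sum_abs _ _
    _ = ∑ r ∈ range (m + 1), (m.choose r : ℝ) * |y + 2 * (r : ℝ) - (m : ℝ)| := by
        apply Finset.sum_congr rfl
        intro r _
        rw [abs_mul, abs_of_nonneg (Nat.cast_nonneg _)]

/-- STEP C for one point: Jensen in the coefficient form. -/
theorem per_point (k cx px : ℕ) (hpc : px ≤ cx) (hck : cx ≤ k) :
    (2 : ℝ) ^ (k - cx) * |2 * (px : ℝ) - (cx : ℝ)|
      ≤ ∑ P ∈ range (k + 1), (if px ≤ P then ((k - cx).choose (P - px) : ℝ) else 0)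
          * |2 * (P : ℝ) - (k : ℝ)| := by
  have hJ := binom_jensen (k - cx) (2 * (px : ℝ) - (cx : ℝ))
  refine le_trans hJ ?_
  have hfilter : (range (k + 1)).filter (fun P => px ≤ P) = Ico px (k + 1) := by
    ext P
    simp only [Finset.mem_filter, Finset.mem_range, Finset.mem_Ico]
    omega
  have hR : ∑ P ∈ range (k + 1), (if px ≤ P then ((k - cx).choose (P - px) : ℝ) else 0)
          * |2 * (P : ℝ) - (k : ℝ)|
      = ∑ r ∈ range (k + 1 - px),
          ((k - cx).choose r : ℝ) * |2 * ((px + r : ℕ) : ℝ) - (k : ℝ)| := by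
    have h5 : ∀ P : ℕ, (if px ≤ P then ((k - cx).choose (P - px) : ℝ) else 0)
          * |2 * (P : ℝ) - (k : ℝ)|
        = if px ≤ P then ((k - cx).choose (P - px) : ℝ) * |2 * (P : ℝ) - (k : ℝ)| else 0 := by
      intro P
      split_ifs <;> simp
    simp only [h5]
    rw [← Finset.sum_filter, hfilter, Finset.sum_Ico_eq_sum_range]
    apply Finset.sum_congr rfl
    intro r _
    rw [Nat.add_sub_cancel_left]
  rw [hR]
  calc ∑ r ∈ range (k - cx + 1), ((k - cx).choose r : ℝ)
          * |2 * (px : ℝ) - (cx : ℝ) + 2 * (r : ℝ) - ((k - cx : ℕ) : ℝ)|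
      = ∑ r ∈ range (k - cx + 1),
          ((k - cx).choose r : ℝ) * |2 * ((px + r : ℕ) : ℝ) - (k : ℝ)| := by
        apply Finset.sum_congr rfl
        intro r _
        have e : 2 * (px : ℝ) - (cx : ℝ) + 2 * (r : ℝ) - ((k - cx : ℕ) : ℝ)
            = 2 * ((px + r : ℕ) : ℝ) - (k : ℝ) := by
          rw [Nat.cast_sub hck, Nat.cast_add]
          ring
        rw [e]
    _ ≤ ∑ r ∈ range (k + 1 - px),
          ((k - cx).choose r : ℝ) * |2 * ((px + r : ℕ) : ℝ) - (k : ℝ)| := by
        apply Finset.sum_le_sum_of_subset_of_nonneg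
        · intro r hr
          simp only [Finset.mem_range] at hr ⊢
          omega
        · intro r _ _
          positivity

/-- The abstract bound (pool job P047-SH-A). -/
theorem abstract_bound {ι : Type*} [Fintype ι] (k : ℕ) (c p : ι → ℕ) (M : ℝ)
    (hpc : ∀ x, p x ≤ c x) (hck : ∀ x, c x ≤ k)
    (hid : ∀ a : ℝ, 0 < a →
      ∑ x, (2 : ℝ) ^ (c x) * a ^ (p x) * (a + 1) ^ (k - c x) = M * (a + 1) ^ k) :
    ∑ x, |2 * (p x : ℝ) - (c x : ℝ)|
      ≤ M * (∑ P ∈ Finset.range (k + 1), (k.choose P : ℝ) * |2 * (P : ℝ) - (k : ℝ)|) / 2 ^ k := by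
  rw [le_div_iff₀ (by positivity : (0 : ℝ) < 2 ^ k)]
  calc (∑ x, |2 * (p x : ℝ) - (c x : ℝ)|) * 2 ^ k
      = ∑ x, (2 : ℝ) ^ (c x) * ((2 : ℝ) ^ (k - c x) * |2 * (p x : ℝ) - (c x : ℝ)|) := by
        rw [Finset.sum_mul]
        apply Finset.sum_congr rfl
        intro x _
        have e : (2 : ℝ) ^ k = 2 ^ (c x) * 2 ^ (k - c x) := by
          rw [← pow_add]
          congr 1
          have := hck x
          omega
        rw [e]
        ring
    _ ≤ ∑ x, (2 : ℝ) ^ (c x) * ∑ P ∈ range (k + 1),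
          (if p x ≤ P then ((k - c x).choose (P - p x) : ℝ) else 0)
            * |2 * (P : ℝ) - (k : ℝ)| := by
        apply Finset.sum_le_sum
        intro x _
        exact mul_le_mul_of_nonneg_left (per_point k (c x) (p x) (hpc x) (hck x))
          (by positivity)
    _ = ∑ P ∈ range (k + 1), (∑ x, (2 : ℝ) ^ (c x) *
          (if p x ≤ P then ((k - c x).choose (P - p x) : ℝ) else 0))
            * |2 * (P : ℝ) - (k : ℝ)| := by
        simp only [Finset.mul_sum, Finset.sum_mul]
        rw [Finset.sum_comm]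
        apply Finset.sum_congr rfl
        intro P _
        apply Finset.sum_congr rfl
        intro x _
        ring
    _ = ∑ P ∈ range (k + 1), (M * (k.choose P : ℝ)) * |2 * (P : ℝ) - (k : ℝ)| := by
        apply Finset.sum_congr rfl
        intro P _
        rw [coeff_identity k c p M hid P]
    _ = M * ∑ P ∈ range (k + 1), (k.choose P : ℝ) * |2 * (P : ℝ) - (k : ℝ)| := by
        rw [Finset.mul_sum]
        apply Finset.sum_congr rfl
        intro P _
        ring

end Vale.Agent.Lib.P047.H89
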